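import Vale.Agent.P004F.Pa.Exl
import Vale.Agent.P004F.Pa.Pk1
import Vale.Agent.P004F.Pa.Lev0
import Vale.Agent.P014U.X4F.St

/-! # P014U, port of P004F, block PAT: powers of principal units -/

set_option linter.all false

open PowerSeries

noncomputable section

namespace Vale.Agent.P014U.X4F.Pa

export Vale.Agent.P004F.Pa (up ac_up sum_up ac_mk mk_zero nak)

namespace Xl

export Vale.Agent.P004F.Pa.Xl (ev ev_vm ev_ker ev_un ex_mat)

end Xl

namespace Lv

export Vale.Agent.P004F.Pa.Lv (sel ac_sel sel_mul ac_sub Tp ac_mk)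

end Lv

open Pat (Im rs rs_unit rs_zero Sy)

variable [Pp]

/-- the limit -/
abbrev ur : (∀ j, Rj (j + 1)) →+* La := Sy.succ.ur

/-- the limit of matrices -/
abbrev um {m n : Type} (A : ∀ j, Matrix m n (Rj (j + 1))) : Matrix m n La := Sy.succ.um A

theorem two_Im1 : (pp : La) ∈ Im 1 := by simpa using Pat.two_Im 1

theorem X_Im1 : (X : La) ∈ Im 1 := by simpa using Pat.X_Im 1

theorem geom_mem {R : Type} [CommRing R] {I : Ideal R} {x : R} (hx : x - 1 ∈ I) (n : ℕ) :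
    ∑ i ∈ Finset.range n, x ^ i - n ∈ I := by
  rw [show (n : R) = ∑ i ∈ Finset.range n, 1 by simp, ← Finset.sum_sub_distrib]
  exact sum_mem fun i _ => I.mem_of_dvd (by simpa using sub_dvd_pow_sub_pow x 1 i) hx

theorem pw_mem {R : Type} [CommRing R] {I : Ideal R} (h2 : (pp : R) ∈ I) {x : R} (h : x - 1 ∈ I)
    (n : ℕ) : x ^ pp ^ n - 1 ∈ I ^ (n + 1) := by
  induction n with
  | zero => simpa using h
  | succ n ih =>
    rw [pow_succ pp, pow_mul, ← mul_geom_sum, pow_succ I (n + 1)]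
    refine Ideal.mul_mem_mul ih ?_
    simpa using I.add_mem (geom_mem (Ideal.pow_le_self n.succ_ne_zero ih) pp) h2

theorem pow_mem_pow {y : La} (hy : y ∈ Im 1) (n : ℕ) : (1 + y) ^ pp ^ n - 1 ∈ Im 1 ^ (n + 1) :=
  pw_mem two_Im1 (by simpa using hy) n

theorem Im_pow (j : ℕ) : Im 1 ^ (2 * j) ≤ Im j := by
  rw [Im, Im, Ideal.span_insert, Ideal.span_insert, pow_one, pow_one, two_mul,
    ← Ideal.span_singleton_pow, ← Ideal.span_singleton_pow]
  exact Ideal.sup_pow_add_le_pow_sup_pow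

/-- the principal units have exponent `p ^ (2 * j)` at level `j` -/
theorem mj_pow {y : La} (hy : y ∈ Im 1) {j k : ℕ} (h : pp ^ (2 * j) ∣ k) : mj j ((1 + y) ^ k) = 1 := by
  obtain ⟨k, rfl⟩ := h
  rw [pow_mul, map_pow, ← map_one (mj j), Ideal.Quotient.eq.2
    (Im_pow j (Ideal.pow_le_pow_right (Nat.le_succ _) (pow_mem_pow hy _))), map_one, one_pow]

theorem mj_mod {y : La} (hy : y ∈ Im 1) {j k k' : ℕ} (h : k ≡ k' [MOD pp ^ (2 * j)]) :
    mj j ((1 + y) ^ k) = mj j ((1 + y) ^ k') := by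
  wlog le : k ≤ k' generalizing k k'
  · exact (this h.symm (le_of_not_ge le)).symm
  obtain ⟨d, rfl⟩ := Nat.exists_eq_add_of_le le
  rw [pow_add, map_mul, mj_pow hy (k := d) (by simpa using (Nat.modEq_iff_dvd' le).1 h), mul_one]

theorem twoX_Im1 : ((pp : La) * X) ∈ Im 1 := (Im 1).mul_mem_left _ X_Im1

theorem rs_X : rs X = 0 := rs_zero.2 X_Im1

theorem dvd_two_pow {l : ℤ_[pp]} (h : l ≠ 0) : ∃ n, l ∣ (pp : ℤ_[pp]) ^ n :=
  ⟨l.valuation, by
    conv_lhs => rw [PadicInt.unitCoeff_spec h]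
    simp⟩

theorem odd_unit {j n : ℕ} (h : ¬ pp ∣ n) : IsUnit (n : Rj j) :=
  map_natCast (mj j) n ▸ (rs_unit.2 (by
    rwa [map_natCast, Ne, ZMod.natCast_eq_zero_iff])).map (mj j)

theorem two_unit : IsUnit (2 : La) := rs_unit.2 (by rw [map_ofNat]; exact two_ne)

end Vale.Agent.P014U.X4F.Pa
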